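import Mathlib
import Vale.Agent.P129.H853.Code

/-!
P129: definitions for the counterexample to the separable quotient problem under CH.

* `W` is the first uncountable ordinal as a well-ordered type, `F` a fixed coherent system.
* `Fn` functionals with rational coefficients, `Vec` finitely supported real vectors.
* `K` is the norming set, `nrm` the norm on `Vec`.
-/

open Finset

namespace Vale.Agent.P129.H448

/-! ### The index set -/

/-- The first uncountable ordinal as a well-ordered type. -/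
abbrev W : Type := (Cardinal.aleph 1).ord.ToType

theorem mk_W : Cardinal.mk W = Cardinal.aleph 1 := by
  rw [Cardinal.mk_toType, Cardinal.card_ord]

theorem countable_Iio (b : W) : (Set.Iio b).Countable := by
  rw [← Cardinal.le_aleph0_iff_set_countable, ← Order.lt_succ_iff, Cardinal.succ_aleph0]
  refine (Cardinal.mk_Iio_lt b ?_).trans_eq mk_W
  rw [mk_W, Ordinal.type_toType]

instance : Nonempty W := by
  rw [← Cardinal.mk_ne_zero_iff, mk_W]
  exact (Cardinal.aleph_pos 1).ne'

noncomputable instance : Inhabited W := Classical.inhabited_of_nonempty inferInstance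

/-- the coherent system on `W` -/
noncomputable def F : ℕ → W → Finset W :=
  Classical.choose (H630.exists_coherent (ι := W) countable_Iio)

theorem F_coherent : H630.Coherent F :=
  Classical.choose_spec (H630.exists_coherent (ι := W) countable_Iio)

/-- `l` is a limit. -/
def IsLim (l : W) : Prop := (∃ a, a < l) ∧ ∀ a < l, ∃ b, a < b ∧ b < l

/-! ### Weights -/

/-- `fw n = 1 + log₂ n` -/
def fw (n : ℕ) : ℕ := 1 + Nat.log 2 n

/-- the weight function -/
def m (n : ℕ) : ℕ := 64 * fw n

/-- the special weights -/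
def ell : ℕ → ℕ
  | 0 => 2 ^ 1000
  | j + 1 => 2 ^ ell j

/-- `T P = m (P ^ log₂ P)` -/
def T (P : ℕ) : ℕ := m (P ^ Nat.log 2 P)

/-- the growth function of the upper estimates -/
noncomputable def G (t : ℕ) : ℝ :=
  (range (t + 1)).sup' ⟨0, by simp⟩ fun s => (s : ℝ) / fw s

/-! ### Functionals and vectors -/

/-- functionals -/
abbrev Fn : Type := W →₀ ℚ

/-- vectors -/
abbrev Vec : Type := W →₀ ℝ

/-- `s` lies before `t` -/
def SLt (s t : Finset W) : Prop := ∀ a ∈ s, ∀ b ∈ t, a < b

/-- `I` lies before `J` -/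
def ILt (I J : Set W) : Prop := ∀ a ∈ I, ∀ b ∈ J, a < b

/-- the convex hull of a finite set -/
def ran (s : Finset W) : Set W := {a | ∃ b ∈ s, ∃ c ∈ s, b ≤ a ∧ a ≤ c}

open Classical in
/-- restriction to a set of coordinates -/
noncomputable def res {R : Type} [Zero R] (I : Set W) (x : W →₀ R) : W →₀ R :=
  x.filter (· ∈ I)

/-- pairing of a function on `W` with a vector, linear in the vector -/
noncomputable def pr (g : W → ℝ) : Vec →ₗ[ℝ] ℝ := Finsupp.linearCombination ℝ g

/-- a functional as a real function -/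
def toR (φ : Fn) : W → ℝ := fun a => (φ a : ℝ)

/-- the action of a functional on a vector -/
noncomputable def ap (φ : Fn) (x : Vec) : ℝ := pr (toR φ) x

/-- averages of weight `n` over `A` -/
def Wtd (A : Set Fn) (n : ℕ) : Set Fn :=
  {φ | ∃ (d : ℕ) (ψ : ℕ → Fn), d ≤ n ∧ (∀ i < d, ψ i ∈ A) ∧
    (∀ i j, i < j → j < d → SLt (ψ i).support (ψ j).support) ∧
      φ = ((m n : ℚ)⁻¹) • ∑ i ∈ range d, ψ i}

/-! ### Special sequences -/

/-- A node of a special sequence: functional `φ`, weight index `w` (the weight is `ell w`),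
parameter `p`. -/
abbrev Node : Type := H853.Nd W

/-- The first `n` nodes of `Φ` form a special sequence with functionals built over `A`. -/
structure IsSpecial (A : Set Fn) (Φ : ℕ → Node) (n : ℕ) : Prop where
  cod : H853.Coded F Φ n
  wtd : ∀ k < n, (Φ k).φ ∈ Wtd A (ell (Φ k).w)

/-- Data of a segment of a special sequence: the nodes `k < n` of `Φ` with weight index in `J`,
restricted to the coordinates in `I`. -/
structure Seg where
  Φ : ℕ → Node
  n : ℕ
  J : Set ℕ
  I : Set W

open Classical in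
/-- the nodes of a segment -/
noncomputable def Seg.nodes (s : Seg) : Finset ℕ := (range s.n).filter fun k => (s.Φ k).w ∈ s.J

/-- the functional of a segment -/
noncomputable def Seg.fn (s : Seg) : Fn := res s.I (∑ k ∈ s.nodes, (s.Φ k).φ)

/-- the weight indices of a segment -/
noncomputable def Seg.idx (s : Seg) : Finset ℕ := s.nodes.image fun k => (s.Φ k).w

/-- a segment of a special sequence over `A` -/
structure Seg.Ok (A : Set Fn) (s : Seg) : Prop where
  sp : IsSpecial A s.Φ s.n
  hJ : s.J.OrdConnected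
  hI : s.I.OrdConnected

/-- The data `N, s, ε` define an admissible sum of segments over `A` with all weight indices
`≥ lo`. -/
structure Adm (A : Set Fn) (lo N : ℕ) (s : ℕ → Seg) (ε : ℕ → ℚ) : Prop where
  ok : ∀ r < N, (s r).Ok A
  sign : ∀ r < N, ε r = 1 ∨ ε r = -1
  disj : ∀ r < N, ∀ r' < N, r ≠ r' → Disjoint (s r).idx (s r').idx
  card : ∀ r < N, ∀ w ∈ (s r).idx, N ≤ w
  low : ∀ r < N, ∀ w ∈ (s r).idx, lo ≤ w

/-- admissible sums of segments over `A` with all weight indices `≥ lo` -/
def Sums (A : Set Fn) (lo : ℕ) : Set Fn :=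
  {φ | ∃ (N : ℕ) (s : ℕ → Seg) (ε : ℕ → ℚ), Adm A lo N s ε ∧
    φ = ∑ r ∈ range N, ε r • (s r).fn}

/-- the stages of the norming set -/
def Kst : ℕ → Set Fn
  | 0 => {φ | φ = 0 ∨ ∃ a, φ = Finsupp.single a 1 ∨ φ = Finsupp.single a (-1)}
  | s + 1 => Kst s ∪ {φ | ∃ n, 2 ≤ n ∧ φ ∈ Wtd (Kst s) n} ∪ Sums (Kst s) 0

/-- the norming set -/
def K : Set Fn := ⋃ s, Kst s

/-- the norm -/
noncomputable def nrm (x : Vec) : ℝ := ⨆ φ : K, |ap φ.1 x|

/-- the `ℓ¹`-norm -/
noncomputable def l1 (x : Vec) : ℝ := ∑ a ∈ x.support, |x a|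

/-! ### Infinite special sequences -/

/-- an infinite special sequence -/
def IsInf (Φ : ℕ → Node) : Prop := ∀ n, IsSpecial K Φ n

open Classical in
/-- the functional of the nodes with number `≥ n` of an infinite special sequence -/
noncomputable def tl (Φ : ℕ → Node) (n : ℕ) : W → ℝ :=
  fun a => ∑ᶠ k, if n ≤ k then ((Φ k).φ a : ℝ) else 0

/-- the functional of an infinite special sequence -/
noncomputable def br (Φ : ℕ → Node) : W → ℝ := tl Φ 0

/-- `Φ` and `Ψ` have only finitely many weight indices in common. -/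
def AlmostDisj (Φ Ψ : ℕ → Node) : Prop :=
  {w | (∃ k, (Φ k).w = w) ∧ ∃ k, (Ψ k).w = w}.Finite

/-- the supports of the nodes of `Φ` are below `l` and cofinal in `l` -/
def Cofinal (Φ : ℕ → Node) (l : W) : Prop :=
  (∀ k, ∀ a ∈ (Φ k).φ.support, a < l) ∧ ∀ a < l, ∃ k, ∀ b ∈ (Φ k).φ.support, a < b

/-! ### Blocks and averages -/

/-- a block sequence of nonzero vectors cofinal in `l` -/
structure IsBlock (l : W) (h : ℕ → Vec) : Prop where
  ne : ∀ k, h k ≠ 0
  succ : ∀ j k, j < k → SLt (h j).support (h k).support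
  lt : ∀ k, ∀ a ∈ (h k).support, a < l
  cof : ∀ a < l, ∃ k, ∀ b ∈ (h k).support, a < b

/-- `∑ ‖E_i x‖ ≤ C` for all `d ≤ n` successive intervals `E_i` -/
def AvgBound (n : ℕ) (x : Vec) (C : ℝ) : Prop :=
  ∀ (d : ℕ) (I : ℕ → Set W), d ≤ n → (∀ i < d, (I i).OrdConnected) →
    (∀ i j, i < j → j < d → ILt (I i) (I j)) → ∑ i ∈ range d, nrm (res (I i) x) ≤ C

/-- admissible sums of segments with weight indices `≥ j` are at most `δ` on `x` -/
def SBound (j : ℕ) (x : Vec) (δ : ℝ) : Prop := ∀ g ∈ Sums K j, |ap g x| ≤ δ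

/-- good vectors -/
structure Good (j : ℕ) (x : Vec) : Prop where
  norm : nrm x = 1
  avg : AvgBound (ell j) x 3
  sp : SBound (j + 1) x (7 * T (2 * ell j) / m (ell (j + 1)))

end Vale.Agent.P129.H448
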